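import Vale.Agent.P157.Kernel
import Mathlib.Analysis.SpecialFunctions.Gaussian.GaussianIntegral
import Mathlib.Probability.Moments.Variance
import Mathlib.MeasureTheory.Integral.Pi

/-!
# P146: a lower bound on the variance from the radial direction
-/

open MeasureTheory ProbabilityTheory
open scoped NNReal ENNReal

namespace Vale.Agent.P146

open Vale.Agent.P157 (gaussVec)

noncomputable section

/-- Density of the centred Gaussian of variance `t ^ 2` relative to the standard one. -/
def ratio (t x : ℝ) : ℝ := t⁻¹ * Real.exp (x ^ 2 * (1 - (t ^ 2)⁻¹) / 2)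

lemma ratio_nonneg {t : ℝ} (ht : 0 < t) (x : ℝ) : 0 ≤ ratio t x := by
  unfold ratio; positivity

lemma measurable_ratio (t : ℝ) : Measurable (ratio t) := by unfold ratio; fun_prop

lemma pdf_one_mul_ratio {t : ℝ} (ht : 0 < t) {v : ℝ≥0} (hv : (v : ℝ) = t ^ 2) (x : ℝ) :
    gaussianPDFReal 0 1 x * ratio t x = gaussianPDFReal 0 v x := by
  simp only [gaussianPDFReal, ratio, NNReal.coe_one, mul_one, sub_zero, hv]
  rw [Real.sqrt_mul (show (0 : ℝ) ≤ 2 * Real.pi by positivity) (t ^ 2), Real.sqrt_sq ht.le,
    mul_inv]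
  rw [show ∀ a b c d : ℝ, a * b * (c * d) = a * c * (b * d) from fun a b c d => by ring,
    ← Real.exp_add]
  congr 2
  field_simp
  ring

lemma integrable_gauss_iff {f : ℝ → ℝ} :
    Integrable f (gaussianReal 0 1) ↔ Integrable fun x => gaussianPDFReal 0 1 x * f x := by
  rw [gaussianReal_of_var_ne_zero _ one_ne_zero,
    integrable_withDensity_iff_integrable_smul' (measurable_gaussianPDF 0 1)
      (ae_of_all _ fun x => gaussianPDF_lt_top)]
  simp [toReal_gaussianPDF]

lemma integrable_ratio {t : ℝ} (ht : 0 < t) :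
    Integrable (ratio t) (gaussianReal 0 1) := by
  rw [integrable_gauss_iff]
  have e : ∀ x, gaussianPDFReal 0 1 x * ratio t x = gaussianPDFReal 0 (NNReal.mk (t ^ 2) (sq_nonneg t)) x :=
    pdf_one_mul_ratio ht rfl
  simp only [e]
  exact integrable_gaussianPDFReal _ _

lemma gauss_scaled_eq {t : ℝ} (ht : 0 < t) (s : Set ℝ) (hs : MeasurableSet s) :
    (gaussianReal 0 1).map (fun x => t * x) s
      = ENNReal.ofReal (∫ x, s.indicator (ratio t) x ∂gaussianReal 0 1) := by
  rw [gaussianReal_map_const_mul, mul_zero, mul_one,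
    gaussianReal_apply_eq_integral 0 (v := (NNReal.mk (t ^ 2) (sq_nonneg t)))
      (fun h => pow_ne_zero 2 ht.ne' (congrArg NNReal.toReal h)),
    integral_gaussianReal_eq_integral_smul one_ne_zero]
  congr 1
  rw [← integral_indicator hs]
  refine integral_congr_ae (ae_of_all _ fun x => ?_)
  by_cases hx : x ∈ s
  · simp only [Set.indicator_of_mem hx, smul_eq_mul]
    exact (pdf_one_mul_ratio ht rfl x).symm
  · simp [hx]

lemma ratio_sq {t : ℝ} (ht : 0 < t) (ht2 : t ^ 2 < 2) :
    Integrable (fun x => ratio t x ^ 2) (gaussianReal 0 1) ∧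
      ∫ x, ratio t x ^ 2 ∂gaussianReal 0 1 = (Real.sqrt (t ^ 2 * (2 - t ^ 2)))⁻¹ := by
  set b : ℝ := (2 - t ^ 2) / (2 * t ^ 2)
  have hb : 0 < b := div_pos (by linarith) (by positivity)
  have e : ∀ x, gaussianPDFReal 0 1 x * ratio t x ^ 2
      = ((Real.sqrt (2 * Real.pi))⁻¹ * (t ^ 2)⁻¹) * Real.exp (-b * x ^ 2) := by
    intro x
    simp only [gaussianPDFReal, ratio, NNReal.coe_one, mul_one, sub_zero, mul_pow, ← Real.exp_nat_mul,
      inv_pow]
    rw [show ∀ a b c d : ℝ, a * b * (c * d) = a * c * (b * d) from fun a b c d => by ring,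
      ← Real.exp_add]
    congr 2
    simp only [b]
    field_simp
    ring
  refine ⟨?_, ?_⟩
  · rw [integrable_gauss_iff]
    simp only [e]
    exact (integrable_exp_neg_mul_sq hb).const_mul _
  · rw [integral_gaussianReal_eq_integral_smul one_ne_zero]
    simp only [smul_eq_mul, e, integral_const_mul, integral_gaussian]
    have h1 : Real.pi / b = (2 * Real.pi) * (t ^ 2 * (2 - t ^ 2)⁻¹) := by
      simp only [b]; field_simp
    have h2 : 0 < Real.sqrt (2 * Real.pi) := by positivity
    rw [h1, Real.sqrt_mul (show (0 : ℝ) ≤ 2 * Real.pi by positivity),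
      Real.sqrt_mul (sq_nonneg t), Real.sqrt_mul (sq_nonneg t), Real.sqrt_sq ht.le, Real.sqrt_inv]
    field_simp

variable {ι : Type} [Fintype ι]

/-- Change of variables `g ↦ t g` as a change of measure. -/
lemma map_scale {t : ℝ} (ht : 0 < t) :
    (gaussVec ι).withDensity (fun g => ENNReal.ofReal (∏ i, ratio t (g i)))
      = (gaussVec ι).map (fun g i => t * g i) := by
  classical
  have hm : Measurable fun x : ℝ => t * x := by fun_prop
  have : IsProbabilityMeasure ((gaussianReal 0 1).map fun x => t * x) :=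
    Measure.isProbabilityMeasure_map hm.aemeasurable
  rw [gaussVec, Measure.pi_map_pi (fun _ => hm.aemeasurable)]
  refine (Measure.pi_eq fun s hs => ?_).symm
  have hsm := MeasurableSet.univ_pi hs
  have hp : Measurable fun g : ι → ℝ => ∏ i, ratio t (g i) := by unfold ratio; fun_prop
  have hint : Integrable (fun g : ι → ℝ => ∏ i, ratio t (g i))
      (Measure.pi fun _ : ι => gaussianReal 0 1) :=
    Integrable.fintype_prod (f := fun _ => ratio t) (fun _ => integrable_ratio ht)
  rw [withDensity_apply _ hsm, ← ofReal_integral_eq_lintegral_ofReal hint.restrict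
      (ae_of_all _ fun g => Finset.prod_nonneg fun i _ => ratio_nonneg ht _),
    ← integral_indicator hsm]
  have e : ∀ g : ι → ℝ, (Set.univ.pi s).indicator (fun g => ∏ i, ratio t (g i)) g
      = ∏ i, (s i).indicator (ratio t) (g i) := by
    intro g
    by_cases h : g ∈ Set.univ.pi s
    · rw [Set.indicator_of_mem h]
      exact Finset.prod_congr rfl fun i _ => (Set.indicator_of_mem (h i trivial) _).symm
    · rw [Set.indicator_of_notMem h]
      obtain ⟨i, hi⟩ : ∃ i, g i ∉ s i := by simpa [Set.mem_univ_pi] using h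
      exact (Finset.prod_eq_zero (Finset.mem_univ i) (by rw [Set.indicator_of_notMem hi])).symm
  simp only [e]
  rw [integral_fintype_prod_eq_prod (f := fun i => (s i).indicator (ratio t)),
    ENNReal.ofReal_prod_of_nonneg fun i _ =>
      integral_nonneg fun x => Set.indicator_nonneg (fun y _ => ratio_nonneg ht y) x]
  exact Finset.prod_congr rfl fun i _ => (gauss_scaled_eq ht _ (hs i)).symm

/-- A function which grows by `(t - 1) (f - f₀)` under dilation by `t` has a variance bounded
below by the square of its excess over `f₀`, divided by `9 n ^ 2`, if the dimension is at most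
`n ^ 2 / 2`. -/
theorem variance_radial {f : (ι → ℝ) → ℝ} (hf : MemLp f 2 (gaussVec ι)) (hfm : Measurable f)
    {f0 : ℝ} {n : ℕ} (hn : 2 ≤ n) (hcard : 2 * Fintype.card ι ≤ n ^ 2)
    (hconv : ∀ g t, 1 ≤ t → t * f g - (t - 1) * f0 ≤ f fun i => t * g i) {A : ℝ} (hA : 0 ≤ A)
    (hmean : A ≤ (∫ g, f g ∂gaussVec ι) - f0) :
    (A / (3 * n)) ^ 2 ≤ variance f (gaussVec ι) := by
  set μ := gaussVec ι
  have hn' : (2 : ℝ) ≤ n := by exact_mod_cast hn
  set s : ℝ := (n : ℝ)⁻¹
  have hs0 : 0 < s := by positivity
  have hs1 : s ≤ 1 / 2 := by rw [one_div]; exact inv_anti₀ two_pos hn'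
  set t := Real.sqrt (1 + s)
  have ht2 : t ^ 2 = 1 + s := Real.sq_sqrt (by linarith)
  have ht : 1 ≤ t := Real.one_le_sqrt.2 (by linarith)
  have ht0 : 0 < t := by linarith
  have htup : t ≤ 2 := by nlinarith
  have hts : (3 * (n : ℝ))⁻¹ ≤ t - 1 := by
    have : t - 1 = s / (t + 1) := by
      field_simp
      nlinarith
    rw [this, mul_inv, mul_comm, div_eq_mul_inv]
    exact mul_le_mul_of_nonneg_left (inv_anti₀ (by linarith) (by linarith)) hs0.le
  set R : (ι → ℝ) → ℝ := fun g => ∏ i, ratio t (g i)
  have hRm : Measurable R := by simp only [R]; unfold ratio; fun_prop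
  have hR0 : ∀ g, 0 ≤ R g := fun g => Finset.prod_nonneg fun i _ => ratio_nonneg ht0 _
  obtain ⟨hr2i, hr2⟩ := ratio_sq ht0 (by rw [ht2]; linarith)
  have hR2i : Integrable (fun g => R g ^ 2) μ := by
    simp only [R, ← Finset.prod_pow]
    exact Integrable.fintype_prod (f := fun _ x => ratio t x ^ 2) fun _ => hr2i
  have hR : MemLp R 2 μ := (memLp_two_iff_integrable_sq hRm.aestronglyMeasurable).2 hR2i
  have hR1 : MemLp (fun g => R g - 1) 2 μ := hR.sub (memLp_const 1)
  have hmeas : Measurable fun (g : ι → ℝ) i => t * g i :=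
    measurable_pi_lambda _ fun i => (measurable_const (a := t)).mul (measurable_pi_apply i)
  have hscale : ∫ g, R g * f g ∂μ = ∫ g, f (fun i => t * g i) ∂μ := by
    rw [← integral_map (φ := fun (g : ι → ℝ) i => t * g i) hmeas.aemeasurable hfm.aestronglyMeasurable,
      ← map_scale ht0, integral_withDensity_eq_integral_toReal_smul
        (hRm.ennreal_ofReal) (ae_of_all _ fun _ => ENNReal.ofReal_lt_top)]
    simp [R, μ, ENNReal.toReal_ofReal (hR0 _)]
  have hRone : ∫ g, R g ∂μ = 1 := by
    have h := congrArg (fun m : Measure (ι → ℝ) => m Set.univ) (map_scale (ι := ι) ht0)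
    simp only [Measure.map_apply (hmeas)
      MeasurableSet.univ, Set.preimage_univ, measure_univ, withDensity_apply _ MeasurableSet.univ,
      Measure.restrict_univ] at h
    rw [integral_eq_lintegral_of_nonneg_ae (ae_of_all _ hR0) hRm.aestronglyMeasurable, h]
    rfl
  have hfi : Integrable f μ := hf.integrable (by norm_num)
  have hft : Integrable (fun g => f fun i => t * g i) μ := by
    have : Integrable f (μ.map fun (g : ι → ℝ) i => t * g i) := by
      rw [← map_scale ht0, integrable_withDensity_iff_integrable_smul'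
        (hRm.ennreal_ofReal) (ae_of_all _ fun _ => ENNReal.ofReal_lt_top)]
      refine (hR.integrable_mul hf).congr (ae_of_all _ fun g => ?_)
      simp [R, ENNReal.toReal_ofReal (hR0 g)]
    exact (integrable_map_measure this.aestronglyMeasurable hmeas.aemeasurable).1 this
  set m := ∫ g, f g ∂μ
  have hgain : (t - 1) * A ≤ (∫ g, f (fun i => t * g i) ∂μ) - m := by
    have h1 := integral_mono ((hfi.const_mul t).sub (integrable_const ((t - 1) * f0))) hft
      fun g => hconv g t ht
    rw [Pi.sub_def, integral_sub (hfi.const_mul t) (integrable_const _), integral_const_mul,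
      integral_const] at h1
    simp at h1
    nlinarith
  -- Cauchy–Schwarz
  have hD : ∫ g, (f g - m) * (R g - 1) ∂μ = (∫ g, f (fun i => t * g i) ∂μ) - m := by
    have e : ∀ g, (f g - m) * (R g - 1) = R g * f g - f g - m * R g + m := fun g => by ring
    simp only [e]
    have i1 : Integrable (fun g => R g * f g) μ := hR.integrable_mul hf
    have i3 : Integrable (fun g => m * R g) μ := (hR.integrable (by norm_num)).const_mul m
    have i12 : Integrable (fun g => R g * f g - f g) μ := i1.sub hfi
    have i123 : Integrable (fun g => R g * f g - f g - m * R g) μ := i12.sub i3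
    rw [integral_add i123 (integrable_const m), integral_sub i12 i3,
      integral_sub i1 hfi, integral_const_mul, hRone, hscale]
    simp [m]
  have hV : ∫ g, (R g - 1) ^ 2 ∂μ ≤ 1 := by
    have e : ∀ g, (R g - 1) ^ 2 = R g ^ 2 - 2 * R g + 1 := fun g => by ring
    simp only [e]
    have i2 := (hR.integrable (by norm_num : (1 : ℝ≥0∞) ≤ 2)).const_mul 2
    have i22 : Integrable (fun g => R g ^ 2 - 2 * R g) μ := hR2i.sub i2
    rw [integral_add i22 (integrable_const 1), integral_sub hR2i i2, integral_const_mul,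
      hRone]
    have : ∫ g, R g ^ 2 ∂μ ≤ 2 := by
      simp only [R, ← Finset.prod_pow, μ, gaussVec]
      rw [integral_fintype_prod_eq_prod (f := fun _ x => ratio t x ^ 2)]
      simp only [hr2, Finset.prod_const, Finset.card_univ, inv_pow]
      set M := Fintype.card ι
      have h0 : 0 < t ^ 2 * (2 - t ^ 2) := by rw [ht2]; nlinarith
      have hB := one_add_mul_le_pow (a := -s ^ 2) (by nlinarith) M
      have hq : t ^ 2 * (2 - t ^ 2) = 1 + -s ^ 2 := by rw [ht2]; ring
      have hM : (M : ℝ) * s ^ 2 ≤ 1 / 2 := by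
        have h2 : (2 : ℝ) * M ≤ (n : ℝ) ^ 2 := by exact_mod_cast hcard
        simp only [s, inv_pow]
        rw [← div_eq_mul_inv, div_le_iff₀ (by positivity)]
        linarith
      refine inv_le_of_inv_le₀ two_pos ?_
      have hsq : ((Real.sqrt (t ^ 2 * (2 - t ^ 2))) ^ M) ^ 2 = (t ^ 2 * (2 - t ^ 2)) ^ M := by
        rw [pow_right_comm, Real.sq_sqrt h0.le]
      rw [hq] at hsq ⊢
      exact le_of_pow_le_pow_left₀ two_ne_zero (by positivity)
        (le_trans (by linarith) (hB.trans_eq hsq.symm))
    simp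
    linarith
  set d := (t - 1) * A
  have hd : 0 ≤ d := mul_nonneg (by linarith) hA
  have hdA : A / (3 * n) ≤ d := by
    rw [div_eq_mul_inv, mul_comm]
    exact mul_le_mul_of_nonneg_right hts hA
  have hfm2 : MemLp (fun g => f g - m) 2 μ := hf.sub (memLp_const m)
  rw [variance_eq_integral hfm.aemeasurable]
  have h0 : 0 ≤ ∫ g, ((f g - m) - d * (R g - 1)) ^ 2 ∂μ := integral_nonneg fun g => sq_nonneg _
  have e : ∀ g, ((f g - m) - d * (R g - 1)) ^ 2
      = (f g - m) ^ 2 - 2 * d * ((f g - m) * (R g - 1)) + d ^ 2 * (R g - 1) ^ 2 := fun g => by ring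
  simp only [e] at h0
  have j1 := hfm2.integrable_sq
  have j2 : Integrable (fun g => 2 * d * ((f g - m) * (R g - 1))) μ :=
    (hfm2.integrable_mul hR1).const_mul _
  have j3 : Integrable (fun g => d ^ 2 * (R g - 1) ^ 2) μ := hR1.integrable_sq.const_mul _
  have j12 : Integrable (fun g => (f g - m) ^ 2 - 2 * d * ((f g - m) * (R g - 1))) μ := j1.sub j2
  rw [integral_add j12 j3, integral_sub j1 j2, integral_const_mul, integral_const_mul,
    hD] at h0
  have hsq : (A / (3 * n)) ^ 2 ≤ d ^ 2 := pow_le_pow_left₀ (by positivity) hdA 2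
  nlinarith [mul_le_mul_of_nonneg_left hV (sq_nonneg d), mul_le_mul_of_nonneg_left hgain hd]

end

end Vale.Agent.P146
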