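import Vale.Agent.P146.Defs
import Vale.Agent.P146.Radial
import Vale.Agent.P157.Moments
import Mathlib.Analysis.MeanInequalitiesPow
import Mathlib.Analysis.SpecialFunctions.Trigonometric.DerivHyp
import Mathlib.Analysis.Convex.SpecificFunctions.Basic

/-!
# P146: the excess of the free energy and the variance bound
-/

open MeasureTheory ProbabilityTheory

namespace Vale.Agent.P146

open Vale.Agent.P157 (gaussVec integral_linear integrable_linear)

noncomputable section

variable {n : ℕ}

lemma sqrt_one_le (hn : 2 ≤ n) : (1 : ℝ) ≤ Real.sqrt n :=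
  Real.one_le_sqrt.2 (by exact_mod_cast (by omega : 1 ≤ n))

lemma abs_spinVal (b : Bool) : |spinVal b| = 1 := by cases b <;> simp [spinVal]

lemma energy_scale (g : Edge n → ℝ) (t : ℝ) (σ : Fin n → Bool) :
    energy (fun e => t * g e) σ = t * energy g σ := by
  simp only [energy, ← mul_div_assoc, Finset.mul_sum, mul_assoc]

lemma abs_energy_le (hn : 2 ≤ n) (g : Edge n → ℝ) (σ : Fin n → Bool) :
    |energy g σ| ≤ ∑ e, |g e| := by
  rw [energy, abs_div, abs_of_pos (lt_of_lt_of_le one_pos (sqrt_one_le hn))]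
  refine le_trans (div_le_self (abs_nonneg _) (sqrt_one_le hn)) ?_
  refine (Finset.abs_sum_le_sum_abs _ _).trans (le_of_eq (Finset.sum_congr rfl fun e _ => ?_))
  rw [abs_mul, abs_mul, abs_spinVal, abs_spinVal, mul_one, mul_one]

lemma card_conf : (Fintype.card (Fin n → Bool) : ℝ) = 2 ^ n := by simp

lemma sum_exp_pos (β : ℝ) (g : Edge n → ℝ) :
    0 < ∑ σ : Fin n → Bool, Real.exp (β * energy g σ) :=
  Finset.sum_pos (fun _ _ => Real.exp_pos _) Finset.univ_nonempty

lemma measurable_freeEnergy (n : ℕ) (β : ℝ) : Measurable (freeEnergy n β) := by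
  unfold freeEnergy energy; fun_prop

lemma measurable_maxEnergy (n : ℕ) : Measurable (maxEnergy n) := by
  have h := Finset.measurable_sup' (s := (Finset.univ : Finset (Fin n → Bool))) Finset.univ_nonempty
    (f := fun σ (g : Edge n → ℝ) => energy g σ) fun σ _ => by unfold energy; fun_prop
  convert h using 1
  funext g
  simp [maxEnergy, Finset.sup'_apply]

lemma freeEnergy_le_max {β : ℝ} (hβ : 0 ≤ β) (g : Edge n → ℝ) :
    freeEnergy n β g ≤ n * Real.log 2 + β * maxEnergy n g := by
  rw [← Real.log_pow, ← Real.log_exp (β * maxEnergy n g),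
    ← Real.log_mul (by positivity) (Real.exp_pos _).ne']
  refine Real.log_le_log (sum_exp_pos β g) ?_
  refine le_trans (Finset.sum_le_sum fun σ _ => Real.exp_le_exp.2
    (mul_le_mul_of_nonneg_left
      (show energy g σ ≤ maxEnergy n g from Finset.le_sup' (energy g) (Finset.mem_univ σ)) hβ)) (le_of_eq ?_)
  simp [maxEnergy]

lemma maxEnergy_abs (hn : 2 ≤ n) (g : Edge n → ℝ) : |maxEnergy n g| ≤ ∑ e, |g e| := by
  obtain ⟨σ, -, hσ⟩ := Finset.exists_mem_eq_sup' Finset.univ_nonempty (energy g)
  rw [maxEnergy, hσ]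
  exact abs_energy_le hn g σ

lemma freeEnergy_abs (hn : 2 ≤ n) {β : ℝ} (hβ : 0 ≤ β) (g : Edge n → ℝ) :
    |freeEnergy n β g| ≤ n * Real.log 2 + β * ∑ e, |g e| := by
  have h2 : 0 ≤ (n : ℝ) * Real.log 2 := by positivity
  rw [abs_le]
  refine ⟨?_, (freeEnergy_le_max hβ g).trans ?_⟩
  · obtain σ : Fin n → Bool := fun _ => true
    have h1 : β * energy g σ ≤ freeEnergy n β g := by
      rw [← Real.log_exp (β * energy g σ)]
      exact Real.log_le_log (Real.exp_pos _)
        (Finset.single_le_sum (f := fun σ => Real.exp (β * energy g σ)) (fun _ _ => (Real.exp_pos _).le)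
          (Finset.mem_univ σ))
    have h3 := mul_le_mul_of_nonneg_left (abs_le.1 (abs_energy_le hn g σ)).1 hβ
    linarith
  · have h3 := mul_le_mul_of_nonneg_left (abs_le.1 (maxEnergy_abs hn g)).2 hβ
    linarith

lemma memLp_absSum : MemLp (fun g : Edge n → ℝ => ∑ e, |g e|) 2 (gaussVec (Edge n)) :=
  memLp_finsetSum _ fun e _ =>
    ((memLp_id_gaussianReal (μ := 0) (v := 1) 2).comp_measurePreserving
      (measurePreserving_eval (fun _ : Edge n => gaussianReal 0 1) e)).norm

lemma memLp_of_abs_le {f : (Edge n → ℝ) → ℝ} (hf : Measurable f) {a b : ℝ} (ha : 0 ≤ a) (hb : 0 ≤ b)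
    (h : ∀ g, |f g| ≤ a + b * ∑ e, |g e|) : MemLp f 2 (gaussVec (Edge n)) :=
  ((memLp_const a).add (memLp_absSum.const_mul b)).mono hf.aestronglyMeasurable
    (ae_of_all _ fun g => by
      simp only [Pi.add_apply, Real.norm_eq_abs]
      rw [abs_of_nonneg (add_nonneg ha (mul_nonneg hb (Finset.sum_nonneg fun e _ => abs_nonneg _)))]
      exact h g)

lemma freeEnergy_convex (hn : 2 ≤ n) (β : ℝ) (g : Edge n → ℝ) (t : ℝ) (ht : 1 ≤ t) :
    t * freeEnergy n β g - (t - 1) * ((n : ℝ) * Real.log 2) ≤ freeEnergy n β fun e => t * g e := by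
  have h2n : (0 : ℝ) < 2 ^ n := by positivity
  have hm := Real.rpow_arith_mean_le_arith_mean_rpow (Finset.univ : Finset (Fin n → Bool))
    (fun _ => ((2 : ℝ) ^ n)⁻¹) (fun σ => Real.exp (β * energy g σ)) (fun _ _ => by positivity)
    (by rw [Finset.sum_const, nsmul_eq_mul, Finset.card_univ, card_conf, mul_inv_cancel₀ h2n.ne'])
    (fun _ _ => (Real.exp_pos _).le) ht
  rw [← Finset.mul_sum, ← Finset.mul_sum] at hm
  have hz := sum_exp_pos β g
  have h := Real.log_le_log (Real.rpow_pos_of_pos (mul_pos (inv_pos.2 h2n) hz) t) hm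
  have e : ∀ σ, Real.exp (β * energy g σ) ^ t = Real.exp (β * energy (fun e => t * g e) σ) :=
    fun σ => by rw [← Real.exp_mul, energy_scale]; ring_nf
  simp only [e] at h
  have hz2 := sum_exp_pos β fun e => t * g e
  rw [Real.log_rpow (mul_pos (inv_pos.2 h2n) hz), Real.log_mul (inv_pos.2 h2n).ne' hz.ne',
    Real.log_mul (inv_pos.2 h2n).ne' hz2.ne', Real.log_inv, Real.log_pow] at h
  unfold freeEnergy
  linarith

lemma maxEnergy_scale (g : Edge n → ℝ) {t : ℝ} (ht : 0 ≤ t) :
    t * maxEnergy n g ≤ maxEnergy n fun e => t * g e := by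
  obtain ⟨σ, -, hσ⟩ := Finset.exists_mem_eq_sup' Finset.univ_nonempty (energy g)
  rw [maxEnergy, hσ, ← energy_scale]
  exact Finset.le_sup' (energy fun e => t * g e) (Finset.mem_univ σ)

/-- The edges between the first `n / 2` sites and the others. -/
def Cross (e : Edge n) : Prop := (e.1.1 : ℕ) < n / 2 ∧ ¬(e.1.2 : ℕ) < n / 2

instance : DecidablePred (Cross (n := n)) := fun e => by unfold Cross; infer_instance

/-- The couplings between the two halves. -/
def crossPart (g : Edge n → ℝ) (e : Edge n) : ℝ := if Cross e then g e else 0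

lemma freeEnergy_cross {β : ℝ} (g : Edge n → ℝ) :
    2 * freeEnergy n β (crossPart g) ≤
      freeEnergy n β g + freeEnergy n β fun e => if Cross e then g e else -g e := by
  have p1 := sum_exp_pos β g
  have p2 := sum_exp_pos β fun e => if Cross e then g e else -g e
  unfold freeEnergy
  rw [← Real.log_mul p1.ne' p2.ne',
    show (2 : ℝ) * Real.log (∑ σ, Real.exp (β * energy (crossPart g) σ))
      = Real.log ((∑ σ, Real.exp (β * energy (crossPart g) σ)) ^ 2) by rw [Real.log_pow]; simp]
  refine Real.log_le_log (pow_pos (sum_exp_pos β _) 2) ?_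
  have hcs := Finset.sum_mul_sq_le_sq_mul_sq (Finset.univ : Finset (Fin n → Bool))
    (fun σ => Real.exp (β * energy g σ / 2))
    (fun σ => Real.exp (β * energy (fun e => if Cross e then g e else -g e) σ / 2))
  have sq : ∀ x : ℝ, Real.exp (x / 2) ^ 2 = Real.exp x := fun x => by
    rw [← Real.exp_nat_mul]; ring_nf
  simp only [sq] at hcs
  refine le_trans (le_of_eq ?_) hcs
  refine congrArg (· ^ 2) (Finset.sum_congr rfl fun σ _ => ?_)
  rw [← Real.exp_add]
  congr 1
  have key : ∑ e, crossPart g e * (spinVal (σ e.1.1) * spinVal (σ e.1.2))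
      = ((∑ e, g e * (spinVal (σ e.1.1) * spinVal (σ e.1.2)))
        + ∑ e, (if Cross e then g e else -g e) * (spinVal (σ e.1.1) * spinVal (σ e.1.2))) / 2 := by
    rw [← Finset.sum_add_distrib, Finset.sum_div]
    refine Finset.sum_congr rfl fun e _ => ?_
    unfold crossPart
    split_ifs <;> ring
  simp only [energy, key]
  ring

/-- The field at `j` of the spins in the first half. -/
def weight (j : Fin n) (σ : Fin n → Bool) (e : Edge n) : ℝ :=
  if Cross e ∧ e.1.2 = j then spinVal (σ e.1.1) / Real.sqrt n else 0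

/-- The second half. -/
def back (n : ℕ) : Finset (Fin n) := Finset.univ.filter fun j => ¬(j : ℕ) < n / 2

lemma energy_crossPart (g : Edge n → ℝ) (σ : Fin n → Bool) :
    energy (crossPart g) σ = ∑ j ∈ back n, spinVal (σ j) * ∑ e, g e * weight j σ e := by
  simp only [Finset.mul_sum]
  rw [Finset.sum_comm, energy, Finset.sum_div]
  refine Finset.sum_congr rfl fun e _ => ?_
  by_cases h : Cross e
  · rw [Finset.sum_eq_single e.1.2]
    · simp [crossPart, weight, h]; ring
    · intro j _ hj; simp [weight, Ne.symm hj]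
    · intro hj; exact (hj (Finset.mem_filter.2 ⟨Finset.mem_univ _, h.2⟩)).elim
  · simp [crossPart, weight, h]

lemma weight_update {j k : Fin n} (hk : k ∈ back n) (σ : Fin n → Bool) (b : Bool) :
    weight j (Function.update σ k b) = weight j σ := by
  funext e
  unfold weight
  split_ifs with h
  · rw [Function.update_of_ne]
    intro e'
    exact (Finset.mem_filter.1 hk).2 (e' ▸ h.1.1)
  · rfl

/-- Averaging over the spins of `S`. -/
lemma sum_flip (S : Finset (Fin n)) (y : Fin n → (Fin n → Bool) → ℝ)
    (hy : ∀ j, ∀ k ∈ S, ∀ σ b, y j (Function.update σ k b) = y j σ) :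
    ∀ W : (Fin n → Bool) → ℝ, (∀ k ∈ S, ∀ σ b, W (Function.update σ k b) = W σ) →
    ∑ σ, W σ * Real.exp (∑ j ∈ S, spinVal (σ j) * y j σ)
      = ∑ σ, W σ * ∏ j ∈ S, Real.cosh (y j σ) := by
  classical
  induction S using Finset.induction_on with
  | empty => intro W _; simp
  | insert a S ha ih =>
    intro W hW
    have hS : ∀ k ∈ S, k ∈ insert a S := fun k hk => Finset.mem_insert_of_mem hk
    have h1 := ih (fun j k hk => hy j k (hS k hk))
      (fun σ => W σ * Real.exp (spinVal (σ a) * y a σ)) fun k hk σ b => by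
        rw [hW k (hS k hk), hy a k (hS k hk),
          Function.update_of_ne (ne_of_mem_of_not_mem hk ha).symm]
    simp only [Finset.sum_insert ha, Real.exp_add, Finset.prod_insert ha, ← mul_assoc]
    rw [h1]
    set P : (Fin n → Bool) → ℝ := fun σ => W σ * ∏ j ∈ S, Real.cosh (y j σ)
    have hinv : Function.Involutive fun σ : Fin n → Bool => Function.update σ a (!σ a) := by
      intro σ; simp
    have h2 := Equiv.sum_comp hinv.toPerm fun σ => P σ * Real.exp (spinVal (σ a) * y a σ)
    have hP : ∀ σ b, P (Function.update σ a b) = P σ := fun σ b => by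
      simp only [P, hW a (Finset.mem_insert_self a S), hy _ a (Finset.mem_insert_self a S)]
    have hya : ∀ σ b, y a (Function.update σ a b) = y a σ := hy a a (Finset.mem_insert_self a S)
    simp only [Function.Involutive.coe_toPerm, hP, hya, Function.update_self] at h2
    have key : ∀ σ, P σ * Real.exp (spinVal (σ a) * y a σ)
        + P σ * Real.exp (spinVal (!σ a) * y a σ) = 2 * (P σ * Real.cosh (y a σ)) := by
      intro σ
      rw [Real.cosh_eq]
      cases σ a <;> simp [spinVal] <;> ring
    have h3 := Finset.sum_congr rfl fun σ (_ : σ ∈ (Finset.univ : Finset (Fin n → Bool))) => key σ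
    rw [Finset.sum_add_distrib, h2, ← Finset.mul_sum] at h3
    simp only [P] at h3
    calc _ = ∑ σ, W σ * (∏ j ∈ S, Real.cosh (y j σ)) * Real.exp (spinVal (σ a) * y a σ) :=
          Finset.sum_congr rfl fun σ _ => by ring
      _ = ∑ σ, W σ * (∏ j ∈ S, Real.cosh (y j σ)) * Real.cosh (y a σ) := by linarith
      _ = _ := Finset.sum_congr rfl fun σ _ => by ring

lemma mul_log_cosh_le {β : ℝ} (hβ : 1 ≤ β) (x : ℝ) :
    β * Real.log (Real.cosh x) ≤ Real.log (Real.cosh (β * x)) := by
  rw [← Real.log_rpow (Real.cosh_pos x)]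
  refine Real.log_le_log (Real.rpow_pos_of_pos (Real.cosh_pos x) _) ?_
  have h := Real.rpow_arith_mean_le_arith_mean_rpow (Finset.univ : Finset Bool) (fun _ => 1 / 2)
    (fun b => Real.exp (spinVal b * x)) (fun _ _ => by norm_num) (by norm_num)
    (fun _ _ => (Real.exp_pos _).le) hβ
  simp only [Fintype.sum_bool, spinVal, ← Real.exp_mul] at h
  simp only [Real.cosh_eq]
  convert h using 2 <;> simp <;> ring_nf

lemma log_cosh_abs_le (x : ℝ) : |Real.log (Real.cosh x)| ≤ |x| := by
  rw [abs_of_nonneg (Real.log_nonneg (Real.one_le_cosh x)), Real.log_le_iff_le_exp (Real.cosh_pos x),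
    Real.cosh_eq]
  have h1 := Real.exp_le_exp.2 (le_abs_self x)
  have h2 := Real.exp_le_exp.2 (neg_le_abs x)
  linarith

lemma measurable_log_cosh (a : ℝ) : Measurable fun x => Real.log (Real.cosh (a * x)) :=
  Real.measurable_log.comp (Real.measurable_cosh.comp (measurable_id.const_mul a))

lemma integrable_log_cosh (a : ℝ) :
    Integrable (fun z => Real.log (Real.cosh (a * z))) (gaussianReal 0 1) :=
  ((memLp_id_gaussianReal (μ := 0) (v := 1) 1).integrable le_rfl |>.norm.const_mul |a|).mono'
    (measurable_log_cosh a).aestronglyMeasurable (ae_of_all _ fun z => by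
      simpa [abs_mul] using log_cosh_abs_le (a * z))

/-- The constant `E log cosh (z / 2)`. -/
def excess : ℝ := ∫ z, Real.log (Real.cosh (2⁻¹ * z)) ∂gaussianReal 0 1

lemma excess_pos : 0 < excess := by
  have h0 : ∀ z, 0 ≤ Real.log (Real.cosh (2⁻¹ * z)) := fun z => Real.log_nonneg (Real.one_le_cosh _)
  rw [excess, integral_pos_iff_support_of_nonneg h0 (integrable_log_cosh _)]
  have e : ({0}ᶜ : Set ℝ) ⊆ Function.support fun z => Real.log (Real.cosh (2⁻¹ * z)) := by
    intro z hz
    exact (Real.log_pos (Real.one_lt_cosh.2 (by simpa using hz))).ne'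
  refine lt_of_lt_of_le ?_ (measure_mono e)
  have := nullSingletonClass_gaussianReal (μ := 0) (v := 1) one_ne_zero
  rw [measure_compl (measurableSet_singleton 0) (measure_ne_top _ _)]
  simp

lemma sum_weight_sq (hn : 2 ≤ n) {j : Fin n} (hj : j ∈ back n) (σ : Fin n → Bool) :
    ∑ e, weight j σ e ^ 2 = (n / 2 : ℕ) / (n : ℝ) := by
  have e1 : ∀ e, weight j σ e ^ 2 = if Cross e ∧ e.1.2 = j then ((n : ℝ))⁻¹ else 0 := fun e => by
    unfold weight
    split_ifs
    · rw [div_pow, ← sq_abs (spinVal _), abs_spinVal, Real.sq_sqrt (Nat.cast_nonneg n)]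
      simp
    · simp
  simp only [e1, ← Finset.sum_filter, Finset.sum_const, nsmul_eq_mul]
  have hj' : ¬(j : ℕ) < n / 2 := (Finset.mem_filter.1 hj).2
  have hc : (Finset.univ.filter fun e : Edge n => Cross e ∧ e.1.2 = j).card = n / 2 := by
    rw [← Fintype.card_fin (n / 2), ← Finset.card_univ]
    symm
    refine Finset.card_bij (fun i _ => ⟨(⟨i, by omega⟩, j), show (i : ℕ) < j by omega⟩) ?_ ?_ ?_
    · intro i _; simp [Cross]; omega
    · intro i _ k _ h; simp [Prod.ext_iff, Fin.ext_iff] at h; exact Fin.ext h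
    · intro e he
      simp only [Finset.mem_filter, Finset.mem_univ, true_and] at he
      refine ⟨⟨e.1.1, he.1.1⟩, Finset.mem_univ _, ?_⟩
      exact Subtype.ext (Prod.ext rfl he.2.symm)
  rw [hc, div_eq_mul_inv]

/-- The mean free energy exceeds `n log 2` by a multiple of `β n`. -/
theorem mean_excess (hn : 2 ≤ n) {β : ℝ} (hβ : 1 ≤ β) :
    β * (n / 2) * excess ≤ (∫ g, freeEnergy n β g ∂gaussVec (Edge n)) - n * Real.log 2 := by
  set μ := gaussVec (Edge n)
  have hβ0 : 0 ≤ β := by linarith
  have hFm := measurable_freeEnergy n β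
  set flip : (Edge n → ℝ) → Edge n → ℝ := fun g e => if Cross e then g e else -g e
  have hfl : MeasurePreserving flip μ μ := by
    refine measurePreserving_pi (fun _ : Edge n => gaussianReal 0 1) _
      (f := fun e x => if Cross e then x else -x) fun e => ?_
    split_ifs
    · exact MeasurePreserving.id _
    · exact ⟨measurable_neg, by rw [gaussianReal_map_neg, neg_zero]⟩
  have hLp : MemLp (freeEnergy n β) 2 μ :=
    memLp_of_abs_le hFm (by positivity) hβ0 (freeEnergy_abs hn hβ0)
  have hFi : Integrable (freeEnergy n β) μ := hLp.integrable (by norm_num)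
  have hFl : Integrable (fun g => freeEnergy n β (flip g)) μ := hfl.integrable_comp_of_integrable hFi
  have hcm : Measurable fun g : Edge n → ℝ => freeEnergy n β (crossPart g) :=
    hFm.comp (measurable_pi_lambda _ fun e => by
      unfold crossPart; split_ifs <;> fun_prop)
  have hci : Integrable (fun g => freeEnergy n β (crossPart g)) μ := by
    refine (memLp_of_abs_le hcm (by positivity : (0:ℝ) ≤ n * Real.log 2) hβ0 fun g => ?_).integrable
      (by norm_num)
    refine (freeEnergy_abs hn hβ0 _).trans (add_le_add le_rfl (mul_le_mul_of_nonneg_left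
      (Finset.sum_le_sum fun e _ => ?_) hβ0))
    unfold crossPart; split_ifs <;> simp
  have h1 : ∫ g, freeEnergy n β (crossPart g) ∂μ ≤ ∫ g, freeEnergy n β g ∂μ := by
    have h := integral_mono (hci.const_mul 2) (hFi.add hFl) freeEnergy_cross
    have e : ∫ g, freeEnergy n β (flip g) ∂μ = ∫ g, freeEnergy n β g ∂μ := by
      conv_rhs => rw [← hfl.map_eq]
      rw [integral_map hfl.measurable.aemeasurable hFm.aestronglyMeasurable]
    rw [integral_const_mul, Pi.add_def, integral_add hFi hFl, e] at h
    linarith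
  set L : (Fin n → Bool) → Fin n → (Edge n → ℝ) → ℝ :=
    fun σ j g => Real.log (Real.cosh (β * ∑ e, g e * weight j σ e))
  have h2 : ∀ g, (n : ℝ) * Real.log 2 + ((2 : ℝ) ^ n)⁻¹ * ∑ σ, ∑ j ∈ back n, L σ j g
      ≤ freeEnergy n β (crossPart g) := by
    intro g
    set y : Fin n → (Fin n → Bool) → ℝ := fun j σ => β * ∑ e, g e * weight j σ e
    have hs := sum_flip (back n) y (fun j k hk σ b => by simp only [y, weight_update hk])
      (fun _ => 1) fun _ _ _ _ => rfl
    simp only [one_mul] at hs
    have e : ∀ σ, β * energy (crossPart g) σ = ∑ j ∈ back n, spinVal (σ j) * y j σ := fun σ => by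
      rw [energy_crossPart, Finset.mul_sum]
      exact Finset.sum_congr rfl fun j _ => by simp only [y]; ring
    unfold freeEnergy
    simp only [e, hs]
    have h2n : (0 : ℝ) < 2 ^ n := by positivity
    have hpos : ∀ σ, 0 < ∏ j ∈ back n, Real.cosh (y j σ) :=
      fun σ => Finset.prod_pos fun j _ => Real.cosh_pos _
    have hj := strictConcaveOn_log_Ioi.concaveOn.le_map_sum (t := Finset.univ)
      (w := fun _ : Fin n → Bool => ((2 : ℝ) ^ n)⁻¹) (p := fun σ => ∏ j ∈ back n, Real.cosh (y j σ))
      (fun _ _ => by positivity)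
      (by rw [Finset.sum_const, nsmul_eq_mul, Finset.card_univ, card_conf, mul_inv_cancel₀ h2n.ne'])
      fun σ _ => hpos σ
    simp only [smul_eq_mul, ← Finset.mul_sum] at hj
    rw [Real.log_mul (inv_pos.2 h2n).ne' (Finset.sum_pos (fun σ _ => hpos σ) Finset.univ_nonempty).ne',
      Real.log_inv, Real.log_pow] at hj
    have e2 : ∀ σ, ∑ j ∈ back n, L σ j g = Real.log (∏ j ∈ back n, Real.cosh (y j σ)) := fun σ => by
      rw [Real.log_prod fun j _ => (Real.cosh_pos _).ne']
    simp only [e2]
    linarith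
  have hLm : ∀ (_ : Fin n → Bool) (_ : Fin n), Measurable fun x : ℝ => Real.log (Real.cosh (β * x)) :=
    fun _ _ => measurable_log_cosh β
  have hLi : ∀ σ j, Integrable (L σ j) μ := fun σ j =>
    integrable_linear (weight j σ) (F := fun x => Real.log (Real.cosh (β * x))) (hLm σ j)
      (by simpa [← mul_assoc] using integrable_log_cosh (β * Real.sqrt (∑ e, weight j σ e ^ 2)))
  have hL : ∀ σ, ∀ j ∈ back n, β * excess ≤ ∫ g, L σ j g ∂μ := by
    intro σ j hj
    simp only [L, μ]
    rw [integral_linear (weight j σ) (F := fun x => Real.log (Real.cosh (β * x))) (hLm σ j),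
      sum_weight_sq hn hj, excess, ← integral_const_mul]
    refine integral_mono ((integrable_log_cosh _).const_mul β)
      (by simpa [← mul_assoc] using integrable_log_cosh (β * Real.sqrt ((n / 2 : ℕ) / (n : ℝ)))) ?_
    intro z
    refine le_trans (mul_log_cosh_le hβ _) (Real.log_le_log (Real.cosh_pos _) ?_)
    rw [Real.cosh_le_cosh, abs_mul, abs_mul, abs_mul, abs_mul]
    refine mul_le_mul_of_nonneg_left (mul_le_mul_of_nonneg_right ?_ (abs_nonneg z)) (abs_nonneg β)
    rw [abs_of_pos (by norm_num : (0:ℝ) < 2⁻¹), abs_of_nonneg (Real.sqrt_nonneg _),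
      Real.le_sqrt (by norm_num) (by positivity)]
    rw [le_div_iff₀ (by positivity : (0:ℝ) < n)]
    have : (n : ℝ) ≤ 4 * ((n / 2 : ℕ) : ℝ) := by exact_mod_cast (by omega : n ≤ 4 * (n / 2))
    linarith
  have h3 := integral_mono ((integrable_const ((n : ℝ) * Real.log 2)).add
    ((integrable_finsetSum _ fun σ _ => integrable_finsetSum _ fun j _ => hLi σ j).const_mul
      ((2 : ℝ) ^ n)⁻¹)) hci h2
  rw [Pi.add_def, integral_add (integrable_const _)
    ((integrable_finsetSum _ fun σ _ => integrable_finsetSum _ fun j _ => hLi σ j).const_mul _),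
    integral_const, integral_const_mul,
    integral_finsetSum _ fun σ _ => integrable_finsetSum _ fun j _ => hLi σ j] at h3
  simp only [integral_finsetSum _ fun j _ => hLi _ j, probReal_univ, one_smul] at h3
  have hb : (n : ℝ) / 2 ≤ (back n).card := by
    have : n ≤ 2 * (back n).card := by
      have hu : (back n).card + (Finset.univ.filter fun j : Fin n => (j : ℕ) < n / 2).card = n := by
        rw [add_comm]; simpa [back] using
          Finset.card_filter_add_card_filter_not (s := (Finset.univ : Finset (Fin n)))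
            (fun j : Fin n => (j : ℕ) < n / 2)
      have : (Finset.univ.filter fun j : Fin n => (j : ℕ) < n / 2).card ≤ n / 2 := by
        refine le_trans (Finset.card_le_card_of_injOn (t := Finset.range (n / 2))
          (fun j : Fin n => (j : ℕ)) (fun j hj => ?_) fun a _ b _ h => Fin.ext h) (by simp)
        simpa using (Finset.mem_filter.1 hj).2
      omega
    rw [div_le_iff₀ two_pos]
    exact_mod_cast (by omega : n ≤ (back n).card * 2)
  have h4 : (2 : ℝ) ^ n * (((back n).card : ℝ) * (β * excess))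
      ≤ ∑ σ : Fin n → Bool, ∑ j ∈ back n, ∫ g, L σ j g ∂μ := by
    rw [← card_conf, ← nsmul_eq_mul, ← Finset.card_univ]
    refine Finset.card_nsmul_le_sum _ _ _ fun σ _ => ?_
    rw [← nsmul_eq_mul]
    exact Finset.card_nsmul_le_sum _ _ _ (hL σ)
  have h5 := mul_le_mul_of_nonneg_left h4 (inv_nonneg.2 (pow_nonneg two_pos.le n : (0:ℝ) ≤ 2 ^ n))
  rw [← mul_assoc, inv_mul_cancel₀ (by positivity), one_mul] at h5
  nlinarith [mul_le_mul_of_nonneg_right hb (mul_nonneg hβ0 excess_pos.le)]

lemma card_edge : 2 * Fintype.card (Edge n) ≤ n ^ 2 := by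
  have h : Fintype.card (Edge n) + Fintype.card (Edge n) ≤ Fintype.card (Fin n × Fin n) := by
    rw [← Fintype.card_sum]
    refine Fintype.card_le_of_injective (Sum.elim (fun e => e.1) fun e => e.1.swap) ?_
    refine Subtype.val_injective.sumElim (fun a b h => Subtype.ext (Prod.swap_injective h)) ?_
    intro a b h
    have h1 := a.2
    have h2 := b.2
    simp only [Prod.ext_iff, Prod.fst_swap, Prod.snd_swap] at h
    rw [h.1, h.2] at h1
    exact absurd h2 h1.asymm
  simp at h
  rw [sq]
  omega

theorem variance_freeEnergy (hn : 2 ≤ n) {β : ℝ} (hβ : 1 ≤ β) :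
    (β * excess / 6) ^ 2 ≤ variance (freeEnergy n β) (gaussVec (Edge n)) := by
  have h := variance_radial (memLp_of_abs_le (measurable_freeEnergy n β) (by positivity)
      (by linarith) (freeEnergy_abs hn (by linarith)))
    (measurable_freeEnergy n β) hn card_edge (freeEnergy_convex hn β)
    (mul_nonneg (mul_nonneg (by linarith) (by positivity)) excess_pos.le) (mean_excess hn hβ)
  have hn' : (n : ℝ) ≠ 0 := Nat.cast_ne_zero.2 (by omega)
  convert h using 2
  field_simp
  ring

theorem variance_maxEnergy (hn : 2 ≤ n) :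
    (excess / 6) ^ 2 ≤ variance (maxEnergy n) (gaussVec (Edge n)) := by
  have hLp : MemLp (maxEnergy n) 2 (gaussVec (Edge n)) :=
    memLp_of_abs_le (measurable_maxEnergy n) le_rfl zero_le_one fun g => by
      simpa using maxEnergy_abs hn g
  have hmean : (n / 2 : ℝ) * excess ≤ (∫ g, maxEnergy n g ∂gaussVec (Edge n)) - 0 := by
    have hF : Integrable (freeEnergy n 1) (gaussVec (Edge n)) :=
      (memLp_of_abs_le (measurable_freeEnergy n 1) (by positivity) zero_le_one
        (freeEnergy_abs hn zero_le_one)).integrable (by norm_num)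
    have h := integral_mono hF ((integrable_const ((n : ℝ) * Real.log 2)).add
      (hLp.integrable (by norm_num))) fun g => by simpa using freeEnergy_le_max zero_le_one g
    rw [Pi.add_def, integral_add (integrable_const _) (hLp.integrable (by norm_num))] at h
    have h2 := mean_excess hn (le_refl (1 : ℝ))
    simp at h
    linarith
  have h := variance_radial hLp (measurable_maxEnergy n) hn card_edge
    (fun g t ht => by simpa using maxEnergy_scale g (zero_le_one.trans ht))
    (mul_nonneg (by positivity) excess_pos.le) hmean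
  have hn' : (n : ℝ) ≠ 0 := Nat.cast_ne_zero.2 (by omega)
  convert h using 2
  field_simp
  ring

end

end Vale.Agent.P146
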