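import Vale.Agent.P157.Kernel
import Mathlib.Analysis.SpecialFunctions.Log.Basic

/-!
# P146: the Sherrington–Kirkpatrick model
-/

namespace Vale.Agent.P146

noncomputable section

/-- The pairs `i < j`. -/
abbrev Edge (n : ℕ) := {p : Fin n × Fin n // p.1 < p.2}

/-- The spin `±1`. -/
def spinVal (b : Bool) : ℝ := if b then 1 else -1

/-- The Hamiltonian `n ^ (-1/2) ∑_{i<j} g_{ij} σ_i σ_j`. -/
def energy {n : ℕ} (g : Edge n → ℝ) (σ : Fin n → Bool) : ℝ :=
  (∑ e, g e * (spinVal (σ e.1.1) * spinVal (σ e.1.2))) / Real.sqrt n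

/-- The free energy `log ∑_σ exp (β H)`. -/
def freeEnergy (n : ℕ) (β : ℝ) (g : Edge n → ℝ) : ℝ :=
  Real.log (∑ σ, Real.exp (β * energy g σ))

/-- The ground state value `max_σ H`. -/
def maxEnergy (n : ℕ) (g : Edge n → ℝ) : ℝ :=
  Finset.univ.sup' Finset.univ_nonempty (energy g)

end

end Vale.Agent.P146
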